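import Crest.Prelude.Def_ChromaticQSym

/-!
# Row 59 (S0081), the KILL lemma (helper227 #20475 Step 4(b)), proof by helper695

Pure integer combinatorics of the skew form `s` of a natural unit interval graph:
`s(u_a,u_b) = 1` for `a < b` adjacent.  If `g ≥ 0` and `s(g,u_c) < 0` for some `c`, then the full moves
`m ↦ m + s(m,W_j) W_j` at `j = a, a+1, …, n-2` (`W_j = u_{j+1} - u_j`, `a` = last argmin of `s(g,u_·)`),
all with `s(m,W_j) > 0`, end in a vector with a negative coordinate.
-/

set_option autoImplicit false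

open Crest.CombinatoricsR.UnitInterval

namespace Crest.Agent.Kill59

variable {n : ℕ}

/-- the skew form on basis vectors: `1` if `a < b` adjacent, `-1` if `b < a` adjacent, `0` otherwise. -/
def e (h : Fin n → ℕ) (a b : Fin n) : ℤ :=
  if a < b ∧ (b : ℕ) + 1 ≤ h a then 1 else if b < a ∧ (a : ℕ) + 1 ≤ h b then -1 else 0

/-- the skew form `s` on `Fin n → ℤ`. -/
def s (h : Fin n → ℕ) (x y : Fin n → ℤ) : ℤ := ∑ a, ∑ b, x a * y b * e h a b

/-- basis vector `u_c`. -/
def u (c : Fin n) : Fin n → ℤ := Pi.single c 1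

/-- `W_j = u_{j+1} - u_j`. -/
def W (j : ℕ) (hj : j + 1 < n) : Fin n → ℤ := u ⟨j + 1, hj⟩ - u ⟨j, by omega⟩

theorem e_self (h : Fin n → ℕ) (a : Fin n) : e h a a = 0 := by simp [e]

theorem e_skew (h : Fin n → ℕ) (a b : Fin n) : e h a b = - e h b a := by
  unfold e
  rcases lt_trichotomy a b with hab | hab | hab
  · have h1 : ¬ b < a := not_lt.mpr hab.le
    by_cases h2 : (b : ℕ) + 1 ≤ h a <;> simp [hab, h1, h2]
  · subst hab; simp
  · have h1 : ¬ a < b := not_lt.mpr hab.le
    by_cases h2 : (a : ℕ) + 1 ≤ h b <;> simp [hab, h1, h2]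

theorem s_u (h : Fin n → ℕ) (x : Fin n → ℤ) (c : Fin n) : s h x (u c) = ∑ a, x a * e h a c := by
  unfold s u
  refine Finset.sum_congr rfl fun a _ => ?_
  rw [Finset.sum_eq_single c]
  · simp
  · intro b _ hb; simp [Pi.single_eq_of_ne hb]
  · simp

theorem s_add_left (h : Fin n → ℕ) (x y z : Fin n → ℤ) : s h (x + y) z = s h x z + s h y z := by
  unfold s
  simp only [← Finset.sum_add_distrib, Pi.add_apply]
  refine Finset.sum_congr rfl fun a _ => Finset.sum_congr rfl fun b _ => by ring

theorem s_smul_left (h : Fin n → ℕ) (k : ℤ) (x z : Fin n → ℤ) : s h (k • x) z = k * s h x z := by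
  unfold s
  simp only [Finset.mul_sum, Pi.smul_apply, smul_eq_mul]
  refine Finset.sum_congr rfl fun a _ => Finset.sum_congr rfl fun b _ => by ring

theorem s_sub_right (h : Fin n → ℕ) (x y z : Fin n → ℤ) : s h x (y - z) = s h x y - s h x z := by
  unfold s
  simp only [← Finset.sum_sub_distrib, Pi.sub_apply]
  refine Finset.sum_congr rfl fun a _ => Finset.sum_congr rfl fun b _ => by ring

theorem s_sub_left (h : Fin n → ℕ) (x y z : Fin n → ℤ) : s h (x - y) z = s h x z - s h y z := by
  unfold s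
  simp only [← Finset.sum_sub_distrib, Pi.sub_apply]
  refine Finset.sum_congr rfl fun a _ => Finset.sum_congr rfl fun b _ => by ring

theorem s_skew (h : Fin n → ℕ) (x y : Fin n → ℤ) : s h x y = - s h y x := by
  unfold s
  rw [Finset.sum_comm, ← Finset.sum_neg_distrib]
  refine Finset.sum_congr rfl fun a _ => ?_
  rw [← Finset.sum_neg_distrib]
  refine Finset.sum_congr rfl fun b _ => ?_
  rw [e_skew h b a]; ring

theorem s_u_u (h : Fin n → ℕ) (a b : Fin n) : s h (u a) (u b) = e h a b := by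
  rw [s_u, Finset.sum_eq_single a]
  · simp [u]
  · intro c _ hc; simp [u, Pi.single_eq_of_ne hc]
  · simp

/-- The chain of full moves. -/
def chain (h : Fin n → ℕ) (a : ℕ) (g : Fin n → ℤ) : ℕ → (Fin n → ℤ)
  | 0 => g
  | k + 1 =>
    if hk : a + k + 1 < n then
      chain h a g k + s h (chain h a g k) (W (a + k) hk) • W (a + k) hk
    else chain h a g k

theorem chain_zero (h : Fin n → ℕ) (a : ℕ) (g : Fin n → ℤ) : chain h a g 0 = g := rfl

theorem chain_succ (h : Fin n → ℕ) (a : ℕ) (g : Fin n → ℤ) (k : ℕ) (hk : a + k + 1 < n) :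
    chain h a g (k + 1) =
      chain h a g k + s h (chain h a g k) (W (a + k) hk) • W (a + k) hk := by
  simp [chain, hk]

/-- Invariant (I1)+(I2). -/
theorem chain_inv (h : Fin n → ℕ) (hh : IsHessenberg h)
    (hc : ∀ i : Fin n, (i : ℕ) + 1 < n → (i : ℕ) + 2 ≤ h i)
    (a : ℕ) (ha : a < n) (g : Fin n → ℤ)
    (hlast : ∀ t : Fin n, a < t → s h g (u ⟨a, ha⟩) < s h g (u t)) (k : ℕ) (hk : a + k < n) :
    s h (chain h a g k) (u ⟨a + k, hk⟩) = s h g (u ⟨a, ha⟩) ∧
      (∀ t : Fin n, a + k < t → s h g (u t) ≤ s h (chain h a g k) (u t)) ∧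
      (∀ hk' : a + k + 1 < n, 0 < s h (chain h a g k) (W (a + k) hk')) := by
  induction k with
  | zero =>
    refine ⟨rfl, fun t _ => le_rfl, fun hk' => ?_⟩
    simp only [chain_zero, W, s_sub_right]
    have := hlast ⟨a + 0 + 1, hk'⟩ (by simp [Fin.lt_def])
    simpa using this
  | succ k ih =>
    have hk0 : a + k < n := by omega
    have hk1 : a + k + 1 < n := by omega
    obtain ⟨i1, i2, i3⟩ := ih hk0
    have hpos := i3 hk1
    rw [chain_succ h a g k hk1]
    set m := chain h a g k with hm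
    set K := s h m (W (a + k) hk1) with hK
    have hKeq : K = s h m (u ⟨a + k + 1, hk1⟩) - s h g (u ⟨a, ha⟩) := by
      rw [hK, W, s_sub_right, i1]
    -- (I1)
    have hWj : s h (W (a + k) hk1) (u ⟨a + k + 1, hk1⟩) = -1 := by
      rw [W, s_sub_left, s_u_u, s_u_u, e_self]
      have h1 := hc ⟨a + k, hk0⟩ hk1
      have h1' : a + k + 2 ≤ h ⟨a + k, hk0⟩ := h1
      simp only [e]
      rw [if_pos ⟨by simp [Fin.lt_def], h1'⟩]
      ring
    have I1 : s h (m + K • W (a + k) hk1) (u ⟨a + (k + 1), hk⟩) = s h g (u ⟨a, ha⟩) := by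
      rw [s_add_left, s_smul_left]
      have : (⟨a + (k + 1), hk⟩ : Fin n) = ⟨a + k + 1, hk1⟩ := rfl
      rw [this, hWj, hKeq]; ring
    have I2 : ∀ t : Fin n, a + (k + 1) < t → s h g (u t) ≤ s h (m + K • W (a + k) hk1) (u t) := by
      intro t ht
      rw [s_add_left, s_smul_left]
      have hW0 : 0 ≤ s h (W (a + k) hk1) (u t) := by
        rw [W, s_sub_left, s_u_u, s_u_u]
        have hmono : h ⟨a + k, hk0⟩ ≤ h ⟨a + k + 1, hk1⟩ := hh.1 (by simp [Fin.le_def])
        have l1 : (⟨a + k, hk0⟩ : Fin n) < t := by simp only [Fin.lt_def]; omega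
        have l2 : (⟨a + k + 1, hk1⟩ : Fin n) < t := by simp only [Fin.lt_def]; omega
        have l1' : ¬ t < (⟨a + k, hk0⟩ : Fin n) := not_lt.mpr l1.le
        have l2' : ¬ t < (⟨a + k + 1, hk1⟩ : Fin n) := not_lt.mpr l2.le
        simp only [e, l1, l2, l1', l2', true_and, false_and, if_false]
        split_ifs with c1 c2 c2 <;> omega
      have := i2 t (by omega)
      nlinarith [mul_nonneg hpos.le hW0]
    refine ⟨I1, I2, fun hk' => ?_⟩
    have h2 := I2 ⟨a + (k + 1) + 1, hk'⟩ (by simp)
    have h3 := hlast ⟨a + (k + 1) + 1, hk'⟩ (by simp only; omega)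
    have h4 : s h (m + K • W (a + k) hk1) (W (a + (k + 1)) hk') =
        s h (m + K • W (a + k) hk1) (u ⟨a + (k + 1) + 1, hk'⟩) -
          s h (m + K • W (a + k) hk1) (u ⟨a + (k + 1), hk⟩) := by
      rw [← s_sub_right]; rfl
    rw [h4, I1]
    linarith

/-- **KILL lemma.**  `g ≥ 0`, some `s(g,u_c) < 0`; then there is a chain of full moves at
`a, a+1, …, n-2`, each with positive slope, ending in a vector with a negative coordinate. -/
theorem kill (h : Fin n → ℕ) (hh : IsHessenberg h)
    (hc : ∀ i : Fin n, (i : ℕ) + 1 < n → (i : ℕ) + 2 ≤ h i)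
    (g : Fin n → ℤ) (hbad : ∃ c, s h g (u c) < 0) (hg : ∀ c, 0 ≤ g c) :
    ∃ a : ℕ, a + 1 < n ∧
      (∀ k (hk : a + k + 1 < n), 0 < s h (chain h a g k) (W (a + k) hk)) ∧
      ∃ c, chain h a g (n - 1 - a) c < 0 := by
  obtain ⟨c0, hc0⟩ := hbad
  have hn : 0 < n := lt_of_le_of_lt (Nat.zero_le _) c0.2
  -- the last argmin
  obtain ⟨b, -, hb⟩ := Finset.exists_min_image (Finset.univ : Finset (Fin n))
    (fun c => s h g (u c)) ⟨c0, Finset.mem_univ _⟩
  let M : Finset (Fin n) := Finset.univ.filter (fun c => s h g (u c) = s h g (u b))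
  have hMne : M.Nonempty := ⟨b, by simp [M]⟩
  set a := M.max' hMne with hadef
  have haM : a ∈ M := Finset.max'_mem _ _
  have hav : s h g (u a) = s h g (u b) := by simpa [M] using haM
  have hlast : ∀ t : Fin n, (a : ℕ) < t → s h g (u a) < s h g (u t) := by
    intro t ht
    have h1 : s h g (u b) ≤ s h g (u t) := hb t (Finset.mem_univ _)
    rcases h1.lt_or_eq with h2 | h2
    · rw [hav]; exact h2
    · exfalso
      have : t ∈ M := by simp [M, h2]
      have := Finset.le_max' M t this
      rw [← hadef] at this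
      exact absurd (Fin.lt_def.mpr ht) (not_lt.mpr this)
  have hneg : s h g (u a) < 0 := by
    rw [hav]; exact lt_of_le_of_lt (hb c0 (Finset.mem_univ _)) hc0
  -- the last vertex is fine for nonnegative vectors
  have hlastv : ∀ m : Fin n → ℤ, (∀ c, 0 ≤ m c) → ∀ t : Fin n, (t : ℕ) + 1 = n →
      0 ≤ s h m (u t) := by
    intro m hm t ht
    rw [s_u]
    refine Finset.sum_nonneg fun i _ => mul_nonneg (hm i) ?_
    unfold e
    split_ifs with c1 c2
    · norm_num
    · exfalso
      have : (t : ℕ) < i := c2.1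
      have := i.2
      omega
    · norm_num
  have han : (a : ℕ) + 1 < n := by
    by_contra hcon
    have h1 : (a : ℕ) + 1 = n := by have := a.2; omega
    have := hlastv g hg a h1
    omega
  have hinv := fun k hk => chain_inv h hh hc (a : ℕ) a.2 g hlast k hk
  refine ⟨a, han, fun k hk => (hinv k (by omega)).2.2 hk, ?_⟩
  by_contra hcon
  push Not at hcon
  have hlt : (a : ℕ) + (n - 1 - a) < n := by omega
  have h1 := (hinv (n - 1 - a) hlt).1
  have h2 := hlastv _ hcon ⟨(a : ℕ) + (n - 1 - a), hlt⟩ (by simp only; omega)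
  rw [h1] at h2
  exact absurd h2 (not_le.mpr hneg)

/-- If `g ≥ 0` and `s(g,u_c) ≥ 0` for all `c`, then `s(g,u_c) = 0` on the support of `g`. -/
theorem good_zero (h : Fin n → ℕ) (g : Fin n → ℤ) (hg : ∀ c, 0 ≤ g c)
    (hgood : ∀ c, 0 ≤ s h g (u c)) (c : Fin n) (hc : 0 < g c) : s h g (u c) = 0 := by
  have hsum : ∑ c, g c * s h g (u c) = 0 := by
    have h1 : ∑ c, g c * s h g (u c) = s h g g := by
      simp only [s_u, Finset.mul_sum]
      rw [Finset.sum_comm]
      unfold s
      refine Finset.sum_congr rfl fun a _ => Finset.sum_congr rfl fun b _ => by ring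
    have h2 : s h g g = 0 := by have := s_skew h g g; omega
    rw [h1, h2]
  have h3 := (Finset.sum_eq_zero_iff_of_nonneg
    (fun c _ => mul_nonneg (hg c) (hgood c))).mp hsum c (Finset.mem_univ _)
  rcases mul_eq_zero.mp h3 with h4 | h4
  · omega
  · exact h4

/-- **Good vectors are independent**: `g ≥ 0`, `s(g,u_c) ≥ 0` for all `c`; then the support of `g` is an
independent set (so `[x^g] ∏_j E(z_j) = ∏_c e_{g_c}(z)`). -/
theorem good_indep (h : Fin n → ℕ) (g : Fin n → ℤ) (hg : ∀ c, 0 ≤ g c)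
    (hgood : ∀ c, 0 ≤ s h g (u c)) (a b : Fin n) (hab : a < b) (hadj : (b : ℕ) + 1 ≤ h a)
    (ha : 0 < g a) (hb : 0 < g b) : False := by
  have key : ∀ k : ℕ, ∀ a b : Fin n, (a : ℕ) = k → a < b → (b : ℕ) + 1 ≤ h a → 0 < g a → 0 < g b →
      False := by
    intro k
    induction k using Nat.strong_induction_on with
    | _ k ih =>
      intro a b hak hab hadj ha hb
      have h0 := good_zero h g hg hgood a ha
      by_contra _
      have h1 : ∑ i, g i * e h i a < 0 := by
        refine Finset.sum_neg' (fun i _ => ?_) ⟨b, Finset.mem_univ _, ?_⟩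
        · unfold e
          split_ifs with c1 c2
          · -- i < a adjacent: g i = 0
            have : ¬ 0 < g i := fun hi => ih i (by rw [← hak]; exact c1.1) i a rfl c1.1 c1.2 hi ha
            have := hg i
            have : g i = 0 := by omega
            simp [this]
          · have := hg i
            linarith
          · simp
        · have l1 : ¬ b < a := not_lt.mpr hab.le
          simp only [e, l1, false_and, if_false]
          rw [if_pos ⟨hab, hadj⟩]
          linarith
      rw [← s_u] at h1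
      omega
  exact key a a b rfl hab hadj ha hb

end Crest.Agent.Kill59
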