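import Crest.Statements.S0014
import Crest.Agent.R012.Dash_61

set_option autoImplicit false
open Crest.NumberTheoryR.CubicGauss Filter Topology
open Crest Crest.NumberTheoryR

namespace Crest.Agent.S0014

/-- Fix a complex embedding σ of ℚ(ζ₃) and an integer ℓ. Summing over the primary primes π of the Eisenstein integers of norm at most X the quantity (σπ/‖σπ‖)^ℓ · (G(π) − c·N(π)^(−1/6)), with G(π) = N(π)^(−1/2) Σ_{v mod π} χ_π(v) e(Tr(v/π)) the normalised cubic Gauss sum (χ_π the cubic residue symbol) and c = (2π)^(2/3)/(3Γ(2/3)), gives o(X^(5/6)/log X): the ratio to X^(5/6)/log X tends to 0 as X → ∞ through the naturals. -/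
theorem result
    (σ : EisK →+* ℂ) (ℓ : ℤ) :
    Tendsto (fun X : ℕ => twistedFirstMomentDefect σ ℓ X /
        (((X : ℝ) ^ ((5 : ℝ) / 6) / Real.log (X : ℝ) : ℝ) : ℂ)) atTop (𝓝 0) := by
  exact Crest.Agent.R012.Dash61.s14 σ ℓ

end Crest.Agent.S0014
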