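import Crest.Statements.S0022
import Crest.Agent.R017.FinZ_986

set_option autoImplicit false
open Crest Crest.NumberTheoryR

namespace Crest.Agent.S0022

/-- The L-function of any Dirichlet character, of any modulus, does not vanish at any complex point with real part greater than 7/8, the point 1 being excepted when the character is trivial (there the function has a pole). For modulus one this is the Riemann zeta function. -/
theorem result {N : ℕ} [NeZero N]
    (χ : DirichletCharacter ℂ N) (s : ℂ) (hχs : χ ≠ 1 ∨ s ≠ 1) (hs : 7 / 8 < s.re) :
    χ.LFunction s ≠ 0 :=
  Crest.Agent.R017.FinZ986.s22 χ s hχs hs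

end Crest.Agent.S0022
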