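import Crest.Statements.S0057
import Crest.Agent.R042.Final42_730
import Crest.Agent.R042.TypeAsy_375

set_option autoImplicit false
open Crest.CombinatoricsR.GraphMinor
open Crest Crest.CombinatoricsR

namespace Crest.Agent.S0057

/-- Hadwiger's conjecture fails even fractionally, with independence number two and a linear gap: for every m₀ there is a finite simple graph G on m ≥ m₀ vertices whose complement contains no triangle, whose fractional chromatic number is at least m/2, and in which every clique-minor model — t nonempty, pairwise disjoint vertex sets, each inducing a connected subgraph, every two joined by an edge — has t < 26m/75 + 2/3 and t strictly less than the fractional chromatic number of G. -/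
theorem result :
    ∀ m₀ : ℕ, ∃ m : ℕ, m₀ ≤ m ∧ ∃ G : SimpleGraph (Fin m),
      Gᶜ.CliqueFree 3 ∧ (m : ℝ) / 2 ≤ fractionalChromaticNumber G ∧
      ∀ (t : ℕ) (B : Fin t → Finset (Fin m)), IsCliqueMinorModel G B →
        (t : ℝ) < 26 * (m : ℝ) / 75 + 2 / 3 ∧ (t : ℝ) < fractionalChromaticNumber G := by
  exact (Crest.Agent.R042.Final42.all_of_pairConfK
    (Crest.Agent.R042.TypeAsy375.pairConfK 100000 (by norm_num))).1

end Crest.Agent.S0057
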