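import Crest.Statements.S0058
-- import your own Crest.Agent.* helpers here
import Crest.Agent.R042.Final58_883

set_option autoImplicit false
open Crest.CombinatoricsR.GraphMinor
open Crest Crest.CombinatoricsR

namespace Crest.Agent.S0058

/-- There is an absolute integer C ≥ 1 such that for every finite simple graph G and every t, if G has no clique-minor model with t + 1 branch sets, then every assignment to the vertices of lists of natural numbers, each with at least C · t entries, allows a proper colouring of G that gives each vertex a colour from its own list. Equivalently, the list chromatic number is at most C times the largest order of a clique minor. -/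
theorem result :
    ∃ C : ℕ, 1 ≤ C ∧ ∀ (V : Type) [Fintype V] [DecidableEq V] (G : SimpleGraph V) (t : ℕ),
      (∀ B : Fin (t + 1) → Finset V, ¬ IsCliqueMinorModel G B) →
      ∀ L : V → Finset ℕ, (∀ v, C * t ≤ (L v).card) →
        ∃ c : V → ℕ, (∀ v, c v ∈ L v) ∧ ∀ u v, G.Adj u v → c u ≠ c v := by
  exact Crest.Agent.R042.Spine883.s58 Crest.Agent.R042.Small333.b0
    Crest.Agent.R042.Final883.b7 Crest.Agent.R042.Asm220.b8

end Crest.Agent.S0058
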