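import Crest.Statements.S0059
import Crest.Agent.R042.Final42_730
import Crest.Agent.R042.TypeAsy_375

set_option autoImplicit false
open Crest Crest.CombinatoricsR

namespace Crest.Agent.S0059

/-- For every m₀ there is a finite simple graph G on m ≥ m₀ vertices whose complement contains no triangle (independence number at most two) in which every connected matching has fewer than m/100 edges: whenever k edges of G, listed as ordered pairs of adjacent vertices, have pairwise disjoint endpoint sets and every two of them are joined by an edge of G between their endpoint sets, then 100 · k < m. -/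
theorem result :
    ∀ m₀ : ℕ, ∃ m : ℕ, m₀ ≤ m ∧ ∃ G : SimpleGraph (Fin m),
      Gᶜ.CliqueFree 3 ∧
      ∀ (k : ℕ) (e : Fin k → Fin m × Fin m),
        (∀ i, G.Adj (e i).1 (e i).2) →
        (∀ i j, i ≠ j → (e i).1 ≠ (e j).1 ∧ (e i).1 ≠ (e j).2 ∧ (e i).2 ≠ (e j).1 ∧ (e i).2 ≠ (e j).2) →
        (∀ i j, i ≠ j →
          G.Adj (e i).1 (e j).1 ∨ G.Adj (e i).1 (e j).2 ∨ G.Adj (e i).2 (e j).1 ∨ G.Adj (e i).2 (e j).2) →
        100 * k < m := by
  exact (Crest.Agent.R042.Final42.all_of_pairConfK
    (Crest.Agent.R042.TypeAsy375.pairConfK 100000 (by norm_num))).2.1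

end Crest.Agent.S0059
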