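import Crest.Statements.S0060
import Crest.Agent.R042.Final42_730
import Crest.Agent.R042.TypeAsy_375

set_option autoImplicit false
open Crest.CombinatoricsR.SpectralGraph
open Crest Crest.CombinatoricsR

namespace Crest.Agent.S0060

/-- The Colin de Verdière chromatic bound fails, with independence number two: for every m₀ there is a finite simple graph G on m ≥ m₀ vertices whose complement has no triangle, such that every real matrix that is well-signed for G (symmetric, negative on adjacent pairs, zero on distinct non-adjacent pairs), has exactly one negative eigenvalue counted with multiplicity and has the Strong Arnold Property, has corank c with c + 1 < m/2, while every proper colouring of G with k colours has m ≤ 2k. -/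
theorem result :
    ∀ m₀ : ℕ, ∃ m : ℕ, m₀ ≤ m ∧ ∃ G : SimpleGraph (Fin m),
      Gᶜ.CliqueFree 3 ∧
      (∀ M : Matrix (Fin m) (Fin m) ℝ, IsWellSigned G M → negEigenvalueCount M = 1 →
        HasStrongArnoldProperty G M → (corank M : ℝ) + 1 < (m : ℝ) / 2) ∧
      (∀ k : ℕ, G.Colorable k → m ≤ 2 * k) := by
  exact (Crest.Agent.R042.Final42.all_of_pairConfK
    (Crest.Agent.R042.TypeAsy375.pairConfK 100000 (by norm_num))).2.2

end Crest.Agent.S0060
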