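import Crest.Statements.S0162
import Crest.Agent.R122.I3Done_478
import Crest.Agent.R122.TopK_984

set_option autoImplicit false
open MeasureTheory
open Crest.AnalysisR.Kinetic
noncomputable section
open Crest Crest.AnalysisR Crest.AnalysisR.Kinetic

namespace Crest.Agent.S0162

/-- On an interval [0, T] with a regular solution f of the Boltzmann equation for an admissible pair potential (radial, unit range, C² with optional repulsive core, stable), from a C¹ probability density with summable Gaussian bounds of rate 2β on itself and its position gradient, each fixed-order rescaled factorial marginal of the grand-canonical Newtonian gas at range ε, activity ε⁻², initial pair exclusion, is within δ of the product of f(t) on every measurable set, uniformly in t, for small ε. -/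
theorem result
    (Φ : Space3 → ℝ) (hΦ : AdmissiblePotential Φ) (β : ℝ) (hβ : 0 < β) (T : ℝ) (hT : 0 < T)
    (f₀ : PhasePoint → ℝ) (hf₀ : ∀ z, 0 ≤ f₀ z) (hf₀d : ContDiff ℝ 1 f₀)
    (hf₀i : Integrable f₀) (hf₀m : ∫ z, f₀ z = 1)
    (hf₀b : HasSummableGaussianBound (2 * β) (fun x v => f₀ (x, v)))
    (hf₀g : HasSummableGaussianBound (2 * β) (fun x v => fderiv ℝ (fun y => f₀ (y, v)) x))
    (f : ℝ → PhasePoint → ℝ) (hf : IsRegularKineticSolution Φ β T f₀ f)
    (Ψ : ℝ → (n : ℕ) → ℝ → Config n → Config n)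
    (hΨ : ∀ ε : ℝ, 0 < ε → IsNewtonianEvolution Φ ε (Ψ ε))
    (s : ℕ) (hs : 1 ≤ s) (δ : ℝ) (hδ : 0 < δ) :
    ∃ ε₀ : ℝ, 0 < ε₀ ∧ ∀ ε : ℝ, 0 < ε → ε < ε₀ → ∀ t ∈ Set.Icc 0 T,
      ∀ A : Set (Config s), MeasurableSet A →
        factorialMarginal f₀ ε (Ψ ε) s t A ≤
            (∫⁻ Z in A, ∏ k, ENNReal.ofReal (f t (Z k))) + ENNReal.ofReal δ ∧
          (∫⁻ Z in A, ∏ k, ENNReal.ofReal (f t (Z k))) ≤
            factorialMarginal f₀ ε (Ψ ε) s t A + ENNReal.ofReal δ := by
  exact Crest.Agent.R122.TopK984.result_of_i3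
    (fun _ _ _ _ _ hD => Crest.Agent.R122.I3Fin478.i3In hD)
    Φ hΦ β hβ T hT f₀ hf₀ hf₀d hf₀i hf₀m hf₀b hf₀g f hf Ψ hΨ s hs δ hδ

end Crest.Agent.S0162
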