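import Crest.Statements.S0219
-- import your own Crest.Agent.* helpers here
import Crest.Agent.R154.KFin_979

set_option autoImplicit false
open Crest.ProbabilityR.RandomEnvironment
open Crest Crest.ProbabilityR Crest.ProbabilityR.RandomEnvironment

namespace Crest.Agent.S0219

/-- Nearest-neighbour random walk in an independent random environment on the d-dimensional integer lattice, d ≥ 3, whose site law gives, almost surely, positive probability to every one of the 2d steps (no uniform lower bound). For every nonzero direction, the annealed probability, from the origin, that the inner product of the walk with that direction tends to +∞ is either 0 or 1. -/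
theorem result
    (d : ℕ) (hd : 3 ≤ d) (ν : MeasureTheory.Measure (Row d)) [MeasureTheory.IsProbabilityMeasure ν]
    (hν : ∀ᵐ p ∂ν, ∀ e : Step d, 0 < p.1 e) (ℓ : Fin d → ℝ) (hℓ : ℓ ≠ 0) :
    annealedProb (iidEnvironmentLaw ν) 0 (escapeEvent ℓ) = 0 ∨
      annealedProb (iidEnvironmentLaw ν) 0 (escapeEvent ℓ) = 1 := by
  exact Crest.Agent.R154.KFin979.t0219 d hd ν hν ℓ hℓ

end Crest.Agent.S0219
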