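import Crest.Statements.S0220
-- import your own Crest.Agent.* helpers here
import Crest.Agent.R154.Fin2_154_843

set_option autoImplicit false
open Crest.ProbabilityR.RandomEnvironment
open Crest Crest.ProbabilityR Crest.ProbabilityR.RandomEnvironment

namespace Crest.Agent.S0220

/-- Nearest-neighbour random walk in an independent, uniformly elliptic random environment on the d-dimensional integer lattice, d ≥ 2 (almost surely each step has probability at least a fixed κ > 0). If, for a unit vector ℓ, the annealed probability from the origin that the inner product of the walk with ℓ tends to +∞ equals 1, then there is a deterministic vector v with positive inner product with ℓ such that, with annealed probability 1, the position at time n divided by n converges to v. -/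
theorem result
    (d : ℕ) (hd : 2 ≤ d) (ν : MeasureTheory.Measure (Row d)) [MeasureTheory.IsProbabilityMeasure ν]
    (κ : ℝ) (hκ : 0 < κ) (hν : ∀ᵐ p ∂ν, ∀ e : Step d, κ ≤ p.1 e)
    (ℓ : Fin d → ℝ) (hℓ : ∑ i, ℓ i ^ 2 = 1)
    (htrans : annealedProb (iidEnvironmentLaw ν) 0 (escapeEvent ℓ) = 1) :
    ∃ v : Fin d → ℝ, 0 < ∑ i, v i * ℓ i ∧
      annealedProb (iidEnvironmentLaw ν) 0 (velocityEvent v) = 1 := by
  exact Crest.Agent.R154.Fin843.t0220_final d hd ν κ hκ hν ℓ hℓ htrans

end Crest.Agent.S0220
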