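import Crest.Statements.S0221
-- import your own Crest.Agent.* helpers here
import Crest.Agent.R154.Fin2_154_843

set_option autoImplicit false
open Crest.ProbabilityR.RandomEnvironment
open Crest Crest.ProbabilityR Crest.ProbabilityR.RandomEnvironment

namespace Crest.Agent.S0221

/-- Nearest-neighbour random walk on the d-dimensional integer lattice, d ≥ 3, in a random environment whose law is invariant under every lattice translation, translation-ergodic, uniformly elliptic (almost surely every step at every site has probability at least some fixed κ > 0) and finite-range dependent with some range R. For every nonzero direction, the annealed probability, from the origin, that the inner product of the walk with that direction tends to +∞ is either 0 or 1. -/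
theorem result
    (d : ℕ) (hd : 3 ≤ d) (Q : MeasureTheory.Measure (Environment d)) [MeasureTheory.IsProbabilityMeasure Q]
    (hstat : ∀ z : Site d, MeasureTheory.MeasurePreserving (shiftEnv z) Q Q)
    (herg : IsTranslationErgodic Q)
    (κ : ℝ) (hκ : 0 < κ) (hell : ∀ᵐ ω ∂Q, ∀ (x : Site d) (e : Step d), κ ≤ (ω x).1 e)
    (R : ℕ) (hR : IsFiniteRangeDependent Q R) (ℓ : Fin d → ℝ) (hℓ : ℓ ≠ 0) :
    annealedProb Q 0 (escapeEvent ℓ) = 0 ∨ annealedProb Q 0 (escapeEvent ℓ) = 1 := by
  exact Crest.Agent.R154.Fin843.t0221_final d hd Q hstat herg κ hκ hell R hR ℓ hℓ

end Crest.Agent.S0221
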