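import Crest.Statements.S0314
import Crest.Agent.R204.AllF_525

set_option autoImplicit false
open scoped Topology
open Crest Crest.GeometryTopology

namespace Crest.Agent.S0314

/-- Let d be a positive integer other than 1, 3 and 7 and not of the form 2^j - 2, and let n be at least d + 2. Then every continuous map from the unit d-sphere to the n-fold iterated loop space of the unit n-sphere (maps from the n-cube sending the boundary to a base point, compact-open topology) that sends a chosen point to the constant loop induces the zero map on degree-d singular homology with coefficients in the integers modulo 2. -/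
theorem result
    (d n : ℕ) (hd : 0 < d) (h1 : d ≠ 1) (h3 : d ≠ 3) (h7 : d ≠ 7) (hK : ∀ j : ℕ, d + 2 ≠ 2 ^ j)
    (hn : d + 2 ≤ n)
    (x : Metric.sphere (0 : EuclideanSpace ℝ (Fin (n + 1))) 1)
    (s : Metric.sphere (0 : EuclideanSpace ℝ (Fin (d + 1))) 1)
    (f : C(Metric.sphere (0 : EuclideanSpace ℝ (Fin (d + 1))) 1,
      GenLoop (Fin n) (Metric.sphere (0 : EuclideanSpace ℝ (Fin (n + 1))) 1) x))
    (hf : f s = GenLoop.const) :
    ((AlgebraicTopology.singularHomologyFunctor (ModuleCat.{0} (ZMod 2)) d).obj
        (ModuleCat.of (ZMod 2) (ZMod 2))).map (TopCat.ofHom f) = 0 := by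
  exact Crest.Agent.R204.Final478.s0314 Crest.Agent.R204.AllF525.allFacts
    Crest.Agent.R204.Final114.hopfLow Crest.Agent.R204.OmS94.bs d n hd h1 h3 h7 hK hn x s f hf

end Crest.Agent.S0314
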