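import Crest.Statements.S0315
import Crest.Agent.R204.AllF_525

set_option autoImplicit false
open scoped Topology
open Crest Crest.GeometryTopology

namespace Crest.Agent.S0315

/-- Let d > 0 and n ≥ d + 2. Take two continuous maps from the unit d-sphere to the n-fold iterated loop space of the unit n-sphere (maps from the n-cube sending the boundary to a base point, compact-open topology), each sending a chosen point to the constant loop. Then the maps they induce on degree-d singular homology with coefficients in the integers modulo 2 coincide, or one of them is zero: the classes carried by all such based sphere maps include at most one non-zero element. -/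
theorem result
    (d n : ℕ) (hd : 0 < d) (hn : d + 2 ≤ n)
    (x : Metric.sphere (0 : EuclideanSpace ℝ (Fin (n + 1))) 1)
    (s : Metric.sphere (0 : EuclideanSpace ℝ (Fin (d + 1))) 1)
    (f g : C(Metric.sphere (0 : EuclideanSpace ℝ (Fin (d + 1))) 1,
      GenLoop (Fin n) (Metric.sphere (0 : EuclideanSpace ℝ (Fin (n + 1))) 1) x))
    (hf : f s = GenLoop.const) (hg : g s = GenLoop.const) :
    ((AlgebraicTopology.singularHomologyFunctor (ModuleCat.{0} (ZMod 2)) d).obj
        (ModuleCat.of (ZMod 2) (ZMod 2))).map (TopCat.ofHom f) = 0 ∨
    ((AlgebraicTopology.singularHomologyFunctor (ModuleCat.{0} (ZMod 2)) d).obj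
        (ModuleCat.of (ZMod 2) (ZMod 2))).map (TopCat.ofHom g) = 0 ∨
    ((AlgebraicTopology.singularHomologyFunctor (ModuleCat.{0} (ZMod 2)) d).obj
        (ModuleCat.of (ZMod 2) (ZMod 2))).map (TopCat.ofHom f) =
      ((AlgebraicTopology.singularHomologyFunctor (ModuleCat.{0} (ZMod 2)) d).obj
        (ModuleCat.of (ZMod 2) (ZMod 2))).map (TopCat.ofHom g) := by
  exact Crest.Agent.R204.Final478.s0315 Crest.Agent.R204.AllF525.allFacts
    Crest.Agent.R204.Final114.hopfLow Crest.Agent.R204.OmS94.bs d n hd hn x s f g hf hg

end Crest.Agent.S0315
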