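import Crest.Statements.S0512
import Crest.Agent.R330.Fin_478
-- import your own Crest.Agent.* helpers here

set_option autoImplicit false
open MeasureTheory Filter Crest.MathPhysics.MatrixQM
open scoped InnerProductSpace
open Crest Crest.MathPhysics

namespace Crest.Agent.S0512

/-- SU(N) supersymmetric matrix mechanics with nine bosonic matrices, `N ≥ 2`, centre of mass removed: for every orthonormal traceless Hermitian colour basis, all real symmetric `16 × 16` Clifford matrices and every non-zero irreducible fermionic module with gauge action, the zero-energy states (L² limits of smooth compactly supported gauge-invariant wave functions whose images under the sixteen supercharges go to zero in L²) form a line: one is not a.e. zero, each is a.e. a multiple of it. -/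
theorem result (N : ℕ) (hN : 2 ≤ N)
    (F : Type) [NormedAddCommGroup F] [InnerProductSpace ℂ F] [FiniteDimensional ℂ F]
    [Nontrivial F] (b : ColorBasis N) (M : FermionRep N F) (R : GaugeAction b M)
    (G : GammaNine) :
    ∃ Ψ₀ ∈ zeroEnergyStates b M R G, ¬ (Ψ₀ =ᵐ[volume] 0) ∧
      ∀ Ψ ∈ zeroEnergyStates b M R G, ∃ c : ℂ, Ψ =ᵐ[volume] c • Ψ₀ := by
  exact Crest.Agent.R330.Fin478.s0512 hN F b M R G

end Crest.Agent.S0512
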