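import Crest.Statements.S0513
import Crest.Agent.R330.SFinal_893

set_option autoImplicit false
open MeasureTheory Filter Crest.MathPhysics.MatrixQM
open scoped InnerProductSpace
open Crest Crest.MathPhysics

namespace Crest.Agent.S0513

/-- The same model with gauge group SU(2): for every admissible colour basis, Clifford matrices, non-zero irreducible fermionic module and gauge action there are an L²-orthonormal sequence `Ψ_j` and reals `E_j > 0` tending to infinity, each `Ψ_j` being an eigenvector with eigenvalue `E_j` of the Hamiltonian given by the closure of the form `(1/16) Σ_α ‖Q_α φ‖²` on the gauge-invariant core (expressed through the closed form tested on core vectors). -/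
theorem result
    (F : Type) [NormedAddCommGroup F] [InnerProductSpace ℂ F] [FiniteDimensional ℂ F]
    [Nontrivial F] (b : ColorBasis 2) (M : FermionRep 2 F) (R : GaugeAction b M)
    (G : GammaNine) :
    ∃ (Ψ : ℕ → Cfg 2 → F) (E : ℕ → ℝ),
      (∀ j k, ∫ x, ⟪Ψ j x, Ψ k x⟫_ℂ = if j = k then (1 : ℂ) else 0) ∧
      (∀ j, 0 < E j) ∧ Tendsto E atTop atTop ∧ ∀ j, IsEigenpair b M R G (E j) (Ψ j) :=
  Crest.Agent.R330.SFinal893.final b M R G

end Crest.Agent.S0513
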